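import Vale.Agent.Lib.P002.G1Defs
import Vale.Agent.Lib.P002.helper11.UlFrame
import Vale.Agent.Lib.P002.helper22.LeadDiag
import Vale.Agent.Lib.P002.helper72.JorUt

/-!
# P002 pool job G1-L (second copy, helper55)

The genericity function is nonzero at a pair in triangular position: the polynomial frame is
then a diagonal matrix.
-/

namespace Vale.Agent.Lib.P002.H55

open Matrix
open Vale.Agent.Lib.P002

/-- Nonvanishing of the determinants of the auxiliary matrices of the polynomial frame. -/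
theorem ulT_det_ne {n : ℕ} (g0 X : Matrix (Fin n) (Fin n) ℂ)
    (hg0 : ∀ i j, j < i → g0 i j = 0) (hg0det : g0.det ≠ 0)
    (hX : ∀ i j, j < i → X i j = 0) (hXd : ∀ i, X i i ≠ 0) (m : Fin n) :
    (ulT (X * revM ℂ n * g0) m).det ≠ 0 := by
  intro hdet
  obtain ⟨x, hx0, hx⟩ := Matrix.exists_mulVec_eq_zero_iff.mpr hdet
  have hm := m.isLt
  have hxhi : ∀ j : Fin n, m.val < j.val → x j = 0 := by
    intro j hj
    have hjn := j.isLt
    have hi : j.val - m.val - 1 < n := by omega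
    have h := congrFun hx ⟨j.val - m.val - 1, hi⟩
    have hrow : ∀ l : Fin n,
        ulT (X * revM ℂ n * g0) m ⟨j.val - m.val - 1, hi⟩ l = if l = j then 1 else 0 := by
      intro l
      have h2 : j.val - m.val - 1 + m.val + 1 = j.val := by omega
      simp only [ulT, Matrix.of_apply, h2, Fin.val_inj, if_pos hjn]
    rw [Matrix.mulVec, dotProduct, Finset.sum_eq_single j] at h
    · rw [hrow, if_pos rfl, one_mul] at h
      exact h
    · intro b _ hb
      rw [hrow, if_neg hb, zero_mul]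
    · intro hc
      exact absurd (Finset.mem_univ _) hc
  have hxm : x m = 0 := by
    have h := congrFun hx (Fin.rev m)
    have hrow : ∀ l : Fin n,
        ulT (X * revM ℂ n * g0) m (Fin.rev m) l = if l = m then 1 else 0 := by
      intro l
      have h1 : ¬ ((Fin.rev m).val + m.val + 1 < n) := by rw [Fin.val_rev]; omega
      have h2 : (Fin.rev m).val + m.val + 1 = n := by rw [Fin.val_rev]; omega
      simp only [ulT, Matrix.of_apply, if_neg h1, if_pos h2]
    rw [Matrix.mulVec, dotProduct, Finset.sum_eq_single m] at h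
    · rw [hrow, if_pos rfl, one_mul] at h
      exact h
    · intro b _ hb
      rw [hrow, if_neg hb, zero_mul]
    · intro hc
      exact absurd (Finset.mem_univ _) hc
  have hxge : ∀ j : Fin n, m.val ≤ j.val → x j = 0 := by
    intro j hj
    rcases Nat.eq_or_lt_of_le hj with h | h
    · have hjm : j = m := Fin.ext h.symm
      rw [hjm]; exact hxm
    · exact hxhi j h
  have hNx : ∀ i : Fin n, n < i.val + m.val + 1 → ((X * revM ℂ n * g0) *ᵥ x) i = 0 := by
    intro i hi
    have h := congrFun hx i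
    have hrow : ∀ l : Fin n,
        ulT (X * revM ℂ n * g0) m i l = (X * revM ℂ n * g0) i l := by
      intro l
      have h1 : ¬ (i.val + m.val + 1 < n) := by omega
      have h2 : ¬ (i.val + m.val + 1 = n) := by omega
      simp only [ulT, Matrix.of_apply, if_neg h1, if_neg h2]
    rw [Matrix.mulVec, dotProduct] at h ⊢
    simp only [hrow] at h
    exact h
  have hz : ∀ a : Fin n, m.val ≤ a.val → (g0 *ᵥ x) a = 0 := by
    intro a ha
    rw [Matrix.mulVec, dotProduct]
    refine Finset.sum_eq_zero fun j _ => ?_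
    by_cases hja : j < a
    · rw [hg0 a j hja, zero_mul]
    · have hmj : m.val ≤ j.val := le_trans ha (not_lt.mp hja)
      rw [hxge j hmj, mul_zero]
  have hy : ∀ i : Fin n, (revM ℂ n *ᵥ (g0 *ᵥ x)) i = (g0 *ᵥ x) (Fin.rev i) := by
    intro i
    rw [Matrix.mulVec, dotProduct, Finset.sum_eq_single (Fin.rev i)]
    · rw [revM_apply, if_pos rfl, one_mul]
    · intro b _ hb
      rw [revM_apply, if_neg hb, zero_mul]
    · intro hc
      exact absurd (Finset.mem_univ _) hc
  have hNxy : (X * revM ℂ n * g0) *ᵥ x = X *ᵥ (revM ℂ n *ᵥ (g0 *ᵥ x)) := by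
    rw [Matrix.mulVec_mulVec, Matrix.mulVec_mulVec, Matrix.mul_assoc]
  have hy0 : ∀ i : Fin n, (revM ℂ n *ᵥ (g0 *ᵥ x)) i = 0 := by
    intro i
    by_cases hi : n - 1 - m.val < i.val
    · have key := H72.ut_mulVec_tail X hX hXd (revM ℂ n *ᵥ (g0 *ᵥ x)) (n - 1 - m.val) (by
        intro i' hi'
        rw [← hNxy]
        exact hNx i' (by omega))
      exact key i hi
    · rw [hy]
      apply hz
      rw [Fin.val_rev]
      have := i.isLt
      omega
  have hz0 : g0 *ᵥ x = 0 := by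
    have h1 : revM ℂ n *ᵥ (revM ℂ n *ᵥ (g0 *ᵥ x)) = g0 *ᵥ x := by
      rw [Matrix.mulVec_mulVec, revM_mul_revM, Matrix.one_mulVec]
    rw [← h1]
    have h2 : revM ℂ n *ᵥ (g0 *ᵥ x) = 0 := funext hy0
    rw [h2, Matrix.mulVec_zero]
  exact hx0 (Matrix.eq_zero_of_mulVec_eq_zero hg0det hz0)

theorem g1_val_tri {k : ℕ} (δ : Fin (k + 1) → ℂ) (hδ : Function.Injective δ)
    (A B : Matrix (Fin (k + 1)) (Fin (k + 1)) ℂ)
    (hK : ∀ i j, j < i → cmm A B i j = 0) (hKd : ∀ i, cmm A B i i = δ i)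
    (hc : ∀ i j, j < i → (B * A * revM ℂ (k + 1)) i j = 0)
    (hcd : ∀ i, (B * A * revM ℂ (k + 1)) i i ≠ 0)
    (htr : trailDet (k + 1) (B * revM ℂ (k + 1)) ≠ 0)
    (hgen : g1Gen (k + 1) (B * revM ℂ (k + 1)) ≠ 0) :
    ∃ v : Fin (k + 1) → ℂ, g1Val δ v A B ≠ 0 := by
  obtain ⟨v, hv⟩ := H72.exists_jorU_ut k δ hδ (cmm A B) hK hKd
  refine ⟨v, ?_⟩
  have hww : revM ℂ (k + 1) * revM ℂ (k + 1) = 1 := revM_mul_revM (k + 1)
  have hg0 : ∀ i j, j < i → jorU δ (cmm A B) v i j = 0 :=
    fun i j h => jorU_ut δ hK hKd v j i h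
  have hg0d : ∀ i, jorU δ (cmm A B) v i i ≠ 0 := by
    rw [det_ut hg0] at hv
    exact fun i => (Finset.prod_ne_zero_iff.mp hv) i (Finset.mem_univ i)
  obtain ⟨hga, hgad⟩ := ut_adjugate_ne hg0 hg0d
  have hX : ∀ i j, j < i →
      ((jorU δ (cmm A B) v).adjugate * (B * A * revM ℂ (k + 1))) i j = 0 := ut_mul hga hc
  have hXd : ∀ i, ((jorU δ (cmm A B) v).adjugate * (B * A * revM ℂ (k + 1))) i i ≠ 0 := by
    intro i
    rw [ut_mul_diag hga hc]
    exact mul_ne_zero (hgad i) (hcd i)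
  have hNX : (jorU δ (cmm A B) v).adjugate * (B * A) * jorU δ (cmm A B) v
      = (jorU δ (cmm A B) v).adjugate * (B * A * revM ℂ (k + 1)) * revM ℂ (k + 1)
          * jorU δ (cmm A B) v := by
    have h1 : B * A * revM ℂ (k + 1) * revM ℂ (k + 1) = B * A := by
      rw [Matrix.mul_assoc (B * A), hww, Matrix.mul_one]
    rw [Matrix.mul_assoc ((jorU δ (cmm A B) v).adjugate) (B * A * revM ℂ (k + 1)), h1]
  have hu : ∀ i j, j < i →
      ulF ((jorU δ (cmm A B) v).adjugate * (B * A) * jorU δ (cmm A B) v) i j = 0 :=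
    H11.ulF_ut _
  have hud : ∀ i,
      ulF ((jorU δ (cmm A B) v).adjugate * (B * A) * jorU δ (cmm A B) v) i i ≠ 0 := by
    intro i
    rw [H11.ulF_diag, hNX]
    exact ulT_det_ne _ _ hg0 hv hX hXd i
  have hg1F : g1Frame δ v A B = jorU δ (cmm A B) v *
      ulF ((jorU δ (cmm A B) v).adjugate * (B * A) * jorU δ (cmm A B) v) := rfl
  have hg1 : ∀ i j, j < i → g1Frame δ v A B i j = 0 := by
    rw [hg1F]; exact ut_mul hg0 hu
  have hg1d : ∀ i, g1Frame δ v A B i i ≠ 0 := by
    intro i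
    rw [hg1F, ut_mul_diag hg0 hu]
    exact mul_ne_zero (hg0d i) (hud i)
  have hXZ' : ∀ u : Matrix (Fin (k + 1)) (Fin (k + 1)) ℂ,
      (jorU δ (cmm A B) v).adjugate * (B * A) * jorU δ (cmm A B) v * u * revM ℂ (k + 1)
      = (jorU δ (cmm A B) v).adjugate * (B * A * revM ℂ (k + 1))
        * (revM ℂ (k + 1) * (jorU δ (cmm A B) v * u) * revM ℂ (k + 1)) := by
    intro u
    rw [hNX]
    simp only [Matrix.mul_assoc]
  have hXZ : (jorU δ (cmm A B) v).adjugate * (B * A) * jorU δ (cmm A B) v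
        * ulF ((jorU δ (cmm A B) v).adjugate * (B * A) * jorU δ (cmm A B) v) * revM ℂ (k + 1)
      = (jorU δ (cmm A B) v).adjugate * (B * A * revM ℂ (k + 1))
        * (revM ℂ (k + 1) * g1Frame δ v A B * revM ℂ (k + 1)) := by
    rw [hg1F]
    exact hXZ' _
  have hXZut : ∀ i j, j < i → ((jorU δ (cmm A B) v).adjugate * (B * A * revM ℂ (k + 1))
        * (revM ℂ (k + 1) * g1Frame δ v A B * revM ℂ (k + 1))) i j = 0 := by
    rw [← hXZ]
    exact H11.ulF_mul _
  obtain ⟨hXa, _⟩ := ut_adjugate_ne hX hXd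
  have hXdet : ((jorU δ (cmm A B) v).adjugate * (B * A * revM ℂ (k + 1))).det ≠ 0 := by
    rw [det_ut hX]
    exact Finset.prod_ne_zero_iff.mpr fun i _ => hXd i
  have hZut : ∀ i j, j < i →
      (revM ℂ (k + 1) * g1Frame δ v A B * revM ℂ (k + 1)) i j = 0 := by
    intro i j hij
    have h1 := ut_mul hXa hXZut i j hij
    rw [← Matrix.mul_assoc, Matrix.adjugate_mul, Matrix.smul_mul, Matrix.one_mul,
      Matrix.smul_apply, smul_eq_mul] at h1
    exact (mul_eq_zero.mp h1).resolve_left hXdet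
  have hg1lt : ∀ a b, a < b → g1Frame δ v A B a b = 0 := by
    intro a b hab
    have h := hZut (Fin.rev a) (Fin.rev b) (Fin.rev_lt_rev.mpr hab)
    rw [revM_conj, Fin.rev_rev, Fin.rev_rev] at h
    exact h
  have hg1diag : g1Frame δ v A B = Matrix.diagonal (fun i => g1Frame δ v A B i i) := by
    ext a b
    rw [Matrix.diagonal_apply]
    by_cases hab : a = b
    · subst hab; rw [if_pos rfl]
    · rw [if_neg hab]
      rcases lt_or_gt_of_ne hab with h | h
      · exact hg1lt a b h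
      · exact hg1 a b h
  have hMatdef : g1Mat δ v A B
      = (g1Frame δ v A B).adjugate * B * g1Frame δ v A B * revM ℂ (k + 1) := rfl
  have hVal : g1Val δ v A B
      = (g1Frame δ v A B).det * trailDet (k + 1) (g1Mat δ v A B)
          * g1Gen (k + 1) (g1Mat δ v A B) := rfl
  obtain ⟨D, hgD, hD0⟩ : ∃ D : Fin (k + 1) → ℂ,
      g1Frame δ v A B = Matrix.diagonal D ∧ ∀ i, D i ≠ 0 :=
    ⟨fun i => g1Frame δ v A B i i, hg1diag, hg1d⟩
  have hwDw : revM ℂ (k + 1) * Matrix.diagonal D * revM ℂ (k + 1)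
      = Matrix.diagonal (fun i => D (Fin.rev i)) := by
    ext i j
    rw [revM_conj, Matrix.diagonal_apply, Matrix.diagonal_apply]
    by_cases hij : i = j
    · subst hij; simp
    · rw [if_neg hij, if_neg (fun h => hij (Fin.rev_injective h))]
  have hd' : ∀ i : Fin (k + 1), (∏ j ∈ Finset.univ.erase i, D j) ≠ 0 :=
    fun i => Finset.prod_ne_zero_iff.mpr fun j _ => hD0 j
  have hMat : g1Mat δ v A B
      = Matrix.diagonal (fun i => ∏ j ∈ Finset.univ.erase i, D j) * (B * revM ℂ (k + 1))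
          * Matrix.diagonal (fun i => D (Fin.rev i)) := by
    rw [hMatdef, hgD, Matrix.adjugate_diagonal, ← hwDw]
    have h1 : Matrix.diagonal (fun i => ∏ j ∈ Finset.univ.erase i, D j) * (B * revM ℂ (k + 1))
          * (revM ℂ (k + 1) * Matrix.diagonal D * revM ℂ (k + 1))
        = Matrix.diagonal (fun i => ∏ j ∈ Finset.univ.erase i, D j) * B
          * (revM ℂ (k + 1) * revM ℂ (k + 1)) * Matrix.diagonal D * revM ℂ (k + 1) := by
      simp only [Matrix.mul_assoc]
    rw [h1, hww, Matrix.mul_one]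
  rw [hVal, hMat, hgD]
  refine mul_ne_zero (mul_ne_zero ?_ ?_) ?_
  · rw [Matrix.det_diagonal]
    exact Finset.prod_ne_zero_iff.mpr fun i _ => hD0 i
  · exact trailDet_conj_ne_zero (k + 1) _ _ _
      (fun i j hij => Matrix.diagonal_apply_ne _ (ne_of_gt hij))
      (fun i => by rw [Matrix.diagonal_apply_eq]; exact hd' i)
      (fun i j hij => Matrix.diagonal_apply_ne _ (ne_of_lt hij))
      (fun i => by rw [Matrix.diagonal_apply_eq]; exact hD0 _) htr
  · exact H22.g1Gen_diag_ne_zero (k + 1) _ _ (B * revM ℂ (k + 1)) hd' (fun i => hD0 _) hgen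

end Vale.Agent.Lib.P002.H55
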